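import Crest.Prelude.Def_AndersonOp

/-!
# Row 334 (helper52): interface of the soft end of S0519

`TightStmt h`: finite-volume tightness of the column `G(·, 0; E)` of the Green function.
`N334/Soft/Main.lean` proves `s0519_of : TightStmt h → (statement of S0519 at h)`.
-/

set_option autoImplicit false

open MeasureTheory
open scoped Matrix.Norms.L2Operator

namespace Crest.Agent.N334.Soft

open Crest.MathPhysics.Anderson

/-- lattice adjacency -/
def adj {d : ℕ} (x y : Fin d → ℤ) : ℝ :=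
  ∑ j, ((if y = x + Pi.single j 1 then 1 else 0) + if y = x - Pi.single j 1 then 1 else 0)

/-- A finite volume that agrees with `ℤ²` on the ball of radius `n` (sup norm); Dirichlet boxes
and tori are examples. -/
structure FinVol (n : ℕ) where
  ι : Type
  [fin : Fintype ι]
  [dec : DecidableEq ι]
  e : ι ↪ (Fin 2 → ℤ)
  A : Matrix ι ι ℝ
  symm : A.IsSymm
  norm_le : ‖A.map Complex.ofReal‖ ≤ 4
  o : ι
  e_o : e o = 0
  cover : ∀ x : Fin 2 → ℤ, (∀ j, |x j| ≤ n + 1) → ∃ y, e y = x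
  adj_eq : ∀ x y, (∀ j, |e x j| ≤ n) → A x y = adj (e x) (e y)

attribute [instance] FinVol.fin FinVol.dec

/-- the finite-volume Hamiltonian -/
noncomputable def FinVol.H {n : ℕ} (F : FinVol n) (h : ℝ) (ω : (Fin 2 → ℤ) → unitInterval) :
    Matrix F.ι F.ι ℂ :=
  F.A.map Complex.ofReal + Matrix.diagonal fun y => ((h * centredPotential ω (F.e y) : ℝ) : ℂ)

/-- sites outside the ball of radius `R` -/
def FinVol.far {n : ℕ} (F : FinVol n) (R : ℕ) : Finset F.ι :=
  Finset.univ.filter fun y => ∃ j, (R : ℤ) < |F.e y j|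

/-- `∑_{|y| > R} |G(y, 0; E)|²` -/
noncomputable def FinVol.tail {n : ℕ} (F : FinVol n) (h : ℝ) (R : ℕ) (E : ℝ)
    (ω : (Fin 2 → ℤ) → unitInterval) : ℝ :=
  ∑ y ∈ F.far R, ‖(F.H h ω - (E : ℂ) • (1 : Matrix F.ι F.ι ℂ))⁻¹ y F.o‖ ^ 2


end Crest.Agent.N334.Soft
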