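import Crest.Agent.N336.Q.Spec
import Mathlib
import Crest.Prelude.Def_AndersonOp
import Crest.Agent.N334.Soft.Defs

-- ▼ part N334/Soft/SW
section

/-!
# Row 334 (helper52): finite-volume Simon-Wolff (spectral averaging in one potential)
-/

set_option autoImplicit false
set_option linter.unusedSectionVars false

open Matrix Finset MeasureTheory Filter Topology
open scoped ComplexOrder MatrixOrder Matrix.Norms.L2Operator InnerProductSpace ENNReal

namespace Crest.Agent.N334.Soft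

open Crest.Agent.N336.Q

variable {n : Type} [Fintype n] [DecidableEq n]

/-- rank one perturbation at the site `o` -/
noncomputable def Hv (H : Matrix n n ℂ) (o : n) (v : ℝ) : Matrix n n ℂ :=
  H + diagonal (Pi.single o (v : ℂ))


/-- spectral weight -/
noncomputable def wt (H : Matrix n n ℂ) (o i : n) : ℝ := ‖evec H i o‖ ^ 2





/-- diagonal Green function -/
noncomputable def gz (H : Matrix n n ℂ) (o : n) (z : ℂ) : ℂ :=
  ∑ i, ((ev H i : ℂ) - z)⁻¹ * (wt H o i : ℂ)








/-- norm of the part of a vector on `F` -/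
noncomputable def tl (F : Finset n) (x : n → ℂ) : ℝ :=
  ‖(WithLp.toLp 2 fun y : F => x y : EuclideanSpace ℂ F)‖

lemma tl_nonneg (F : Finset n) (x : n → ℂ) : 0 ≤ tl F x := norm_nonneg _

lemma tl_sq (F : Finset n) (x : n → ℂ) : tl F x ^ 2 = ∑ y ∈ F, ‖x y‖ ^ 2 := by
  rw [tl, EuclideanSpace.norm_sq_eq, ← sum_coe_sort F]







end Crest.Agent.N334.Soft
end

-- ▼ part N334/Soft/PP
section

/-!
# Row 334 (helper52): totally bounded Chebyshev orbits give a basis of eigenvectors
-/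

set_option autoImplicit false

open Filter Topology Module.End Finset
open scoped InnerProductSpace

namespace Crest.Agent.N334.Soft

variable {E : Type} [NormedAddCommGroup E] [InnerProductSpace ℂ E]

/-- the Chebyshev orbit `T_n(X) ψ` -/
noncomputable def ch (X : E →L[ℂ] E) (ψ : E) : ℕ → E
  | 0 => ψ
  | 1 => X ψ
  | n + 2 => (2 : ℂ) • X (ch X ψ (n + 1)) - ch X ψ n



variable {X : E →L[ℂ] E}





variable [CompleteSpace E]





theorem exists_eigenbasis (hX : (X : E →ₗ[ℂ] E).IsSymmetric)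
    (h : (⨆ μ, eigenspace (X : Module.End ℂ E) μ)ᗮ = ⊥) :
    ∃ (ι : Type) (b : HilbertBasis ι ℂ E), ∀ i, ∃ μ : ℝ, X (b i) = (μ : ℂ) • b i := by
  have hc : ∀ μ, CompleteSpace (eigenspace (X : Module.End ℂ E) μ) := fun μ => by
    have : (eigenspace (X : Module.End ℂ E) μ : Set E) = {a | X a = μ • a} :=
      Set.ext fun a => mem_eigenspace_iff
    exact IsClosed.completeSpace_coe (hs := this ▸ isClosed_eq X.continuous (by fun_prop))
  choose w b hb using fun μ => exists_hilbertBasis ℂ (eigenspace (X : Module.End ℂ E) μ)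
  let v : (Σ μ, w μ) → E := fun i => b i.1 i.2
  have hv : Orthonormal ℂ v :=
    hX.orthogonalFamily_eigenspaces.orthonormal_sigma_orthonormal fun μ => (b μ).orthonormal
  refine ⟨_, HilbertBasis.mkOfOrthogonalEqBot hv ?_, fun i => ?_⟩
  · refine (Submodule.eq_bot_iff _).2 fun u hu => (Submodule.eq_bot_iff _).1 h u ?_
    rw [← Submodule.iInf_orthogonal, Submodule.mem_iInf]
    intro μ a ha
    have h1 := ((innerSL ℂ u).comp (Submodule.subtypeL _)).hasSum ((b μ).hasSum_repr ⟨a, ha⟩)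
    have h2 : ∀ j, ⟪u, (b μ j : E)⟫_ℂ = 0 := fun j => Submodule.inner_left_of_mem_orthogonal
      (Submodule.subset_span (Set.mem_range_self (f := v) ⟨μ, j⟩)) hu
    simp only [ContinuousLinearMap.comp_apply, map_smul, Submodule.subtypeL_apply, innerSL_apply_apply,
      h2, smul_zero] at h1
    rw [inner_eq_zero_symm]
    exact h1.unique hasSum_zero
  · rw [HilbertBasis.coe_mkOfOrthogonalEqBot]
    have h1 : X (v i) = i.1 • v i := mem_eigenspace_iff.1 (b i.1 i.2).2
    have h2 := hX.conj_eigenvalue_eq_self (μ := i.1) (hasEigenvalue_of_hasEigenvector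
      ⟨(b i.1 i.2).2, hv.ne_zero i⟩)
    exact ⟨i.1.re, by rw [h1, Complex.conj_eq_iff_re.1 h2]⟩

end Crest.Agent.N334.Soft
private theorem rz_85a7e953cf : type_of% @_root_.Crest.Agent.N334.Soft.ch.eq_def := @_root_.Crest.Agent.N334.Soft.ch.eq_def -- L17
private theorem rz_3f5a996d97 : type_of% @_root_.Crest.Agent.N334.Soft.ch.eq_1 := @_root_.Crest.Agent.N334.Soft.ch.eq_1 -- L17
end

-- ▼ part N334/Soft/Weyl
section

/-!
# Row 334 (helper52): Weyl sequences for the Anderson model (any dimension, any hopping)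
-/

set_option autoImplicit false

open Finset MeasureTheory Filter Topology
open scoped ENNReal

namespace Crest.Agent.N334.Soft

open Crest.MathPhysics.Anderson

variable {d : ℕ}

lemma translate_apply (a : Fin d → ℤ) (u : Ell2 d) (x : Fin d → ℤ) :
    translate d a u x = u (x + a) := rfl

lemma multiply_apply (v : lp (fun _ : Fin d → ℤ => ℝ) ⊤) (u : Ell2 d) (x : Fin d → ℤ) :
    multiply d v u x = (v x : ℂ) * u x := rfl

lemma latticeOp_apply (t : ℝ) (v : lp (fun _ : Fin d → ℤ => ℝ) ⊤) (u : Ell2 d) :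
    ⇑(latticeOp d t v u) = applyOp d t v u := by
  funext x
  simp only [latticeOp, applyOp, _root_.add_apply, _root_.smul_apply,
    _root_.sum_apply, lp.coeFn_add, lp.coeFn_smul, lp.coeFn_sum, Pi.add_apply,
    Pi.smul_apply, Finset.sum_apply, translate_apply, multiply_apply, smul_eq_mul, sub_eq_add_neg]

lemma norm_translate_le (a : Fin d → ℤ) : ‖translate d a‖ ≤ 1 :=
  LinearMap.mkContinuous_norm_le _ zero_le_one _

lemma norm_latticeOp_le (t : ℝ) (v : lp (fun _ : Fin d → ℤ => ℝ) ⊤) :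
    ‖latticeOp d t v‖ ≤ 2 * d * |t| + ‖v‖ := by
  refine (norm_add_le _ _).trans (add_le_add ?_ (LinearMap.mkContinuous_norm_le _ (norm_nonneg _) _))
  rw [norm_smul, Complex.norm_real, Real.norm_eq_abs, mul_comm]
  refine mul_le_mul_of_nonneg_right ((norm_sum_le _ _).trans ?_) (abs_nonneg _)
  refine (sum_le_card_nsmul _ _ 2 fun j _ => (norm_add_le _ _).trans ?_).trans (by simp [mul_comm])
  linarith [norm_translate_le (d := d) (Pi.single j 1), norm_translate_le (d := d) (-Pi.single j 1)]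

lemma norm_pot_le {c : ℝ} (hc : 0 ≤ c) (ω : (Fin d → ℤ) → unitInterval) :
    ‖c • centredPotentialBdd ω‖ ≤ c := by
  rw [norm_smul, Real.norm_of_nonneg hc]
  refine mul_le_of_le_one_right hc (lp.norm_le_of_forall_le zero_le_one fun x => ?_)
  have h0 := (ω x).2.1
  have h1 := (ω x).2.2
  change ‖2 * (ω x : ℝ) - 1‖ ≤ 1
  rw [Real.norm_eq_abs, abs_le]; constructor <;> linarith

lemma pot_apply (c : ℝ) (ω : (Fin d → ℤ) → unitInterval) :
    ⇑(c • centredPotentialBdd ω) = fun x => c * centredPotential ω x := rfl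

lemma norm_sq_of_supp (u : Ell2 d) (B : Finset (Fin d → ℤ)) (h : ∀ z, z ∉ B → u z = 0) :
    ‖u‖ ^ 2 = ∑ z ∈ B, ‖u z‖ ^ 2 := by
  have := lp.norm_rpow_eq_tsum (p := 2) (by norm_num) u
  simp only [ENNReal.toReal_ofNat, Real.rpow_ofNat] at this
  rw [this, tsum_eq_sum fun z hz => by simp [h z hz]]

/-- a finitely supported vector -/
noncomputable def fs (B : Finset (Fin d → ℤ)) (f : (Fin d → ℤ) → ℂ) : Ell2 d :=
  ∑ z ∈ B, lp.single 2 z (f z)

lemma fs_apply (B : Finset (Fin d → ℤ)) (f : (Fin d → ℤ) → ℂ) (x : Fin d → ℤ) :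
    fs B f x = if x ∈ B then f x else 0 := by
  rw [fs, lp.coeFn_sum, Finset.sum_apply]
  simp only [lp.single_apply, Pi.single_apply, sum_ite_eq]

/-- the box `x + [0, L)^d` -/
noncomputable def bx (x : Fin d → ℤ) (L : ℕ) : Finset (Fin d → ℤ) :=
  Fintype.piFinset fun j => Ico (x j) (x j + L)

lemma card_bx (x : Fin d → ℤ) (L : ℕ) : #(bx x L) = L ^ d := by simp [bx]

lemma card_face (x : Fin d → ℤ) (L : ℕ) (j : Fin d) (c : ℤ) :
    #(Fintype.piFinset (Function.update (fun i => Ico (x i) (x i + L)) j {c})) * L = L ^ d := by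
  rw [Fintype.card_piFinset, ← mul_prod_erase _ _ (mem_univ j), Function.update_self, card_singleton,
    one_mul, prod_congr rfl fun i hi => by rw [Function.update_of_ne (mem_erase.1 hi).1]]
  simp only [Int.card_Ico, add_sub_cancel_left, Int.toNat_natCast, prod_const]
  rw [← pow_succ, card_erase_add_one (mem_univ j), card_univ, Fintype.card_fin]

/-- plane wave -/
noncomputable def pw (θ : ℝ) (y : Fin d → ℤ) : ℂ := Complex.exp ((θ * ∑ j, (y j : ℝ) : ℝ) * Complex.I)

lemma norm_pw (θ : ℝ) (y : Fin d → ℤ) : ‖pw θ y‖ = 1 := Complex.norm_exp_ofReal_mul_I _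

lemma pw_add (θ : ℝ) (y : Fin d → ℤ) (j : Fin d) (s : ℤ) :
    pw θ (y + Pi.single j s) = Complex.exp ((θ * s : ℝ) * Complex.I) * pw θ y := by
  rw [pw, pw, ← Complex.exp_add]
  simp only [Pi.add_apply, Int.cast_add, sum_add_distrib, Pi.single_apply, Int.cast_ite,
    Int.cast_zero, sum_ite_eq', mem_univ, if_true]
  congr 1; push_cast; ring

lemma norm_fs_pw (θ : ℝ) (x : Fin d → ℤ) (L : ℕ) : ‖fs (bx x L) (pw θ)‖ ^ 2 = L ^ d := by
  rw [norm_sq_of_supp _ (bx x L) fun z hz => by rw [fs_apply, if_neg hz],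
    sum_congr rfl fun z hz => by rw [fs_apply, if_pos hz, norm_pw]]
  simp [card_bx]

lemma norm_shift_le (θ : ℝ) (x : Fin d → ℤ) {L : ℕ} (hL : 1 ≤ L) (j : Fin d) {s : ℤ}
    (hs : s = 1 ∨ s = -1) :
    ‖translate d (Pi.single j s) (fs (bx x L) (pw θ)) -
      Complex.exp ((θ * s : ℝ) * Complex.I) • fs (bx x L) (pw θ)‖ ≤
      √(4 / L) * ‖fs (bx x L) (pw θ)‖ := by
  let F : ℤ → Finset (Fin d → ℤ) := fun c =>
    Fintype.piFinset (Function.update (fun i => Ico (x i) (x i + L)) j {c})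
  set w := translate d (Pi.single j s) (fs (bx x L) (pw θ)) -
      Complex.exp ((θ * s : ℝ) * Complex.I) • fs (bx x L) (pw θ) with hw
  have h1 : ∀ z, w z = ((if z + Pi.single j s ∈ bx x L then 1 else 0) -
      if z ∈ bx x L then 1 else 0) * (Complex.exp ((θ * s : ℝ) * Complex.I) * pw θ z) := by
    intro z
    simp only [hw, lp.coeFn_sub, lp.coeFn_smul, Pi.sub_apply, Pi.smul_apply, translate_apply,
      fs_apply, pw_add, smul_eq_mul]
    split_ifs <;> ring
  have h2 : ∀ z, ‖w z‖ ≤ 1 := fun z => by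
    rw [h1, norm_mul, norm_mul, norm_pw, Complex.norm_exp_ofReal_mul_I]
    split_ifs <;> simp
  have h3 : ∀ z, z ∉ F (x j - 1) ∪ F (x j) ∪ F (x j + L - 1) ∪ F (x j + L) → w z = 0 := by
    intro z hz
    have h4 : z + Pi.single j s ∈ bx x L ↔ z ∈ bx x L := by
      have hF : ∀ c, z ∈ F c ↔ z j = c ∧ ∀ i, i ≠ j → x i ≤ z i ∧ z i < x i + L := fun c => by
        simp only [F, Fintype.mem_piFinset]
        rw [Function.forall_update_iff _ fun i (S : Finset ℤ) => z i ∈ S]
        simp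
      have hB : ∀ y, y ∈ bx x L ↔ (x j ≤ y j ∧ y j < x j + L) ∧
          ∀ i, i ≠ j → x i ≤ y i ∧ y i < x i + L := fun y => by
        simp only [bx, Fintype.mem_piFinset, mem_Ico]
        exact ⟨fun h => ⟨h j, fun i _ => h i⟩, fun h i => (em (i = j)).elim (· ▸ h.1) (h.2 i)⟩
      simp only [mem_union, hF, not_or, not_and'] at hz
      rw [hB, hB]
      have e : (∀ i, i ≠ j → x i ≤ (z + Pi.single j s : Fin d → ℤ) i ∧
          (z + Pi.single j s : Fin d → ℤ) i < x i + L) ↔
          ∀ i, i ≠ j → x i ≤ z i ∧ z i < x i + L :=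
        forall₂_congr fun i hi => by simp [hi]
      rw [e]
      refine and_congr_left fun h => ?_
      have := hz.1.1.1 h; have := hz.1.1.2 h; have := hz.1.2 h; have := hz.2 h
      simp only [Pi.add_apply, Pi.single_eq_same]
      omega
    simp [h1, h4]
  have hL0 : (0 : ℝ) < L := by exact_mod_cast hL
  have h4 : ∀ c, (#(F c) : ℝ) = L ^ d / L := fun c => by
    rw [eq_div_iff hL0.ne']; exact_mod_cast card_face x L j c
  refine (pow_le_pow_iff_left₀ (norm_nonneg _) (by positivity) two_ne_zero).1 ?_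
  rw [norm_sq_of_supp w _ h3, mul_pow, norm_fs_pw, Real.sq_sqrt (by positivity)]
  refine (sum_le_card_nsmul _ _ 1 fun z _ => pow_le_one₀ (norm_nonneg _) (h2 z)).trans ?_
  have h5 : #(F (x j - 1) ∪ F (x j) ∪ F (x j + L - 1) ∪ F (x j + L)) ≤
      #(F (x j - 1)) + #(F (x j)) + #(F (x j + L - 1)) + #(F (x j + L)) :=
    (card_union_le _ _).trans (Nat.add_le_add_right ((card_union_le _ _).trans
      (Nat.add_le_add_right (card_union_le _ _) _)) _)
  rw [nsmul_eq_mul, mul_one]
  refine (Nat.cast_le.2 h5).trans (le_of_eq ?_)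
  push_cast
  simp only [h4]; ring

lemma weyl_box (t θ w η : ℝ) (v : lp (fun _ : Fin d → ℤ => ℝ) ⊤) (x : Fin d → ℤ) {L : ℕ}
    (hL : 1 ≤ L) (hη : 0 ≤ η) (hv : ∀ y ∈ bx x L, |v y - w| ≤ η) :
    ‖latticeOp d t v (fs (bx x L) (pw θ)) -
      ((2 * d * t * Real.cos θ + w : ℝ) : ℂ) • fs (bx x L) (pw θ)‖ ≤
      (2 * d * |t| * √(4 / L) + η) * ‖fs (bx x L) (pw θ)‖ := by
  set u := fs (bx x L) (pw θ) with hu
  have h1 : latticeOp d t v u - ((2 * d * t * Real.cos θ + w : ℝ) : ℂ) • u =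
      (t : ℂ) • ∑ j, ((translate d (Pi.single j 1) u -
        Complex.exp ((θ * (1 : ℤ) : ℝ) * Complex.I) • u) + (translate d (Pi.single j (-1)) u -
        Complex.exp ((θ * (-1 : ℤ) : ℝ) * Complex.I) • u)) + (multiply d v u - (w : ℂ) • u) := by
    have e : Complex.exp ((θ * (-1 : ℤ) : ℝ) * Complex.I) =
        2 * Complex.cos θ - Complex.exp ((θ * (1 : ℤ) : ℝ) * Complex.I) := by
      rw [Complex.two_cos]; push_cast; ring_nf
    simp only [latticeOp, _root_.add_apply, _root_.smul_apply,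
      _root_.sum_apply, Pi.single_neg, e, sum_add_distrib, sum_sub_distrib, sum_const,
      card_univ, Fintype.card_fin, ← Nat.cast_smul_eq_nsmul ℂ]
    push_cast
    module
  have h2 : ‖multiply d v u - (w : ℂ) • u‖ ≤ η * ‖u‖ := by
    have e : ∀ z, (multiply d v u - (w : ℂ) • u) z = ((v z - w : ℝ) : ℂ) * u z := fun z => by
      simp only [lp.coeFn_sub, lp.coeFn_smul, Pi.sub_apply, Pi.smul_apply, multiply_apply,
        smul_eq_mul]
      push_cast; ring
    have e0 : ∀ z, z ∉ bx x L → u z = 0 := fun z hz => by rw [hu, fs_apply, if_neg hz]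
    refine (pow_le_pow_iff_left₀ (norm_nonneg _) (by positivity) two_ne_zero).1 ?_
    rw [mul_pow, norm_sq_of_supp u _ e0, norm_sq_of_supp _ (bx x L) fun z hz => by
      rw [e, e0 z hz, mul_zero], mul_sum]
    refine sum_le_sum fun z hz => ?_
    rw [e, norm_mul, mul_pow, Complex.norm_real, Real.norm_eq_abs]
    gcongr
    exact hv z hz
  rw [h1, add_mul]
  refine (norm_add_le _ _).trans (add_le_add ?_ h2)
  rw [norm_smul, Complex.norm_real, Real.norm_eq_abs]
  have h3 := (norm_sum_le univ _).trans (sum_le_card_nsmul univ _ _ fun j _ =>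
    (norm_add_le _ _).trans (add_le_add (norm_shift_le θ x hL j (Or.inl rfl))
      (norm_shift_le θ x hL j (Or.inr rfl))))
  refine (mul_le_mul_of_nonneg_left h3 (abs_nonneg _)).trans (le_of_eq ?_)
  rw [card_univ, Fintype.card_fin, nsmul_eq_mul]; ring

lemma ae_exists_box (hd : 1 ≤ d) (L : ℕ) {S : Set unitInterval} (hS : MeasurableSet S)
    (h0 : volume S ≠ 0) : ∀ᵐ ω ∂(siteMeasure (Fin d → ℤ)), ∃ x, ∀ y ∈ bx x L, ω y ∈ S := by
  let j : Fin d := ⟨0, hd⟩
  let T := ↥(bx (0 : Fin d → ℤ) L)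
  let f : ℕ × T → Fin d → ℤ := fun p => p.2.1 + Pi.single j (p.1 * L : ℤ)
  have hf : Function.Injective f := by
    rintro ⟨k, y⟩ ⟨k', y'⟩ h
    have h1 := congrFun h j
    have h2 := mem_Ico.1 (Fintype.mem_piFinset.1 y.2 j)
    have h3 := mem_Ico.1 (Fintype.mem_piFinset.1 y'.2 j)
    simp only [f, Pi.add_apply, Pi.single_eq_same, Pi.zero_apply, zero_add] at h1 h2 h3
    obtain rfl : k = k' := by
      have : (k : ℤ) = k' := by nlinarith
      exact_mod_cast this
    exact Prod.ext rfl (Subtype.ext (add_right_cancel h))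
  let ν : Measure (T → unitInterval) := Measure.infinitePi fun _ => volume
  let C : Set (T → unitInterval) := Set.pi (univ : Finset T) fun _ => S
  have hC : MeasurableSet C := .pi (Set.to_countable _) fun _ _ => hS
  have hν : ν Cᶜ < 1 := by
    rw [prob_compl_eq_one_sub hC]
    refine ENNReal.sub_lt_self ENNReal.one_ne_top one_ne_zero ?_
    rw [Measure.infinitePi_pi _ fun _ _ => hS]
    exact prod_ne_zero_iff.2 fun _ _ => h0
  let g : ((Fin d → ℤ) → unitInterval) → ℕ → T → unitInterval := fun ω k y => ω (f (k, y))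
  have hg : (siteMeasure (Fin d → ℤ)).map g = Measure.infinitePi fun _ => ν := by
    rw [← Measure.infinitePi_map_curry (fun (_ : ℕ) (_ : T) => (volume : Measure unitInterval)),
      ← Measure.map_infinitePi_infinitePi_of_inj (P := fun _ => (volume : Measure unitInterval)) hf,
      Measure.map_map (by fun_prop) (by fun_prop)]
    rfl
  rw [ae_iff]
  refine le_antisymm (ge_of_tendsto' (ENNReal.tendsto_pow_atTop_nhds_zero_of_lt_one hν)
    fun K => ?_) zero_le
  have h1 := Measure.infinitePi_pi (fun _ : ℕ => ν) (s := range K) (t := fun _ => Cᶜ)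
    fun _ _ => hC.compl
  rw [prod_const, card_range, ← hg, Measure.map_apply (by fun_prop)
    (.pi (Set.to_countable _) fun _ _ => hC.compl)] at h1
  rw [← h1]
  refine measure_mono fun ω hω (k : ℕ) _ hk => hω ⟨Pi.single j (k * L : ℤ), fun y hy => ?_⟩
  have h2 : y - Pi.single j (k * L : ℤ) ∈ bx (0 : Fin d → ℤ) L := by
    refine Fintype.mem_piFinset.2 fun i => ?_
    have := mem_Ico.1 (Fintype.mem_piFinset.1 hy i)
    simp only [Pi.zero_apply, Pi.sub_apply, mem_Ico]
    omega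
  simpa [g, f] using hk ⟨_, h2⟩ (mem_univ _)

lemma vol_ball_ne (q : unitInterval) {r : ℝ} (hr : 0 < r) : volume (Metric.ball q r) ≠ 0 := by
  rw [unitInterval.volume_apply]
  have h1 : Set.Ioo (max 0 (q - r)) (min 1 (q + r)) ⊆ Subtype.val '' Metric.ball q r := by
    intro x hx
    simp only [Set.mem_Ioo, max_lt_iff, lt_min_iff] at hx
    exact ⟨⟨x, hx.1.1.le, hx.2.1.le⟩, by
      rw [Metric.mem_ball, Subtype.dist_eq, Real.dist_eq, abs_lt]; constructor <;> linarith [hx.1.2, hx.2.2], rfl⟩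
  refine (lt_of_lt_of_le ?_ (measure_mono h1)).ne'
  have := q.2.1; have := q.2.2
  rw [Real.volume_Ioo, ENNReal.ofReal_pos, sub_pos, max_lt_iff, lt_min_iff, lt_min_iff]
  refine ⟨⟨?_, ?_⟩, ?_, ?_⟩ <;> linarith

/-- almost surely, Weyl vectors exist at every energy of `[-2d|t| - c, 2d|t| + c]` -/
theorem ae_weyl (hd : 1 ≤ d) (t : ℝ) {c : ℝ} (hc : 0 < c) :
    ∀ᵐ ω ∂(siteMeasure (Fin d → ℤ)), ∀ E : ℝ, |E| ≤ 2 * d * |t| + c → ∀ η > 0, ∃ u : Ell2 d,
      ‖latticeOp d t (c • centredPotentialBdd ω) u - (E : ℂ) • u‖ < η * ‖u‖ := by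
  obtain ⟨D, hD, hD'⟩ := TopologicalSpace.exists_countable_dense unitInterval
  have h1 : ∀ᵐ ω ∂(siteMeasure (Fin d → ℤ)), ∀ q ∈ D, ∀ L r : ℕ,
      ∃ x, ∀ y ∈ bx x L, ω y ∈ Metric.ball q (1 / ((r : ℝ) + 1)) :=
    (ae_ball_iff hD).2 fun q _ => ae_all_iff.2 fun L => ae_all_iff.2 fun r =>
      ae_exists_box hd L measurableSet_ball (vol_ball_ne q (by positivity))
  filter_upwards [h1] with ω hω E hE η hη
  obtain ⟨θ, w, hw, rfl⟩ : ∃ θ w : ℝ, |w| ≤ c ∧ E = 2 * d * t * Real.cos θ + w := by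
    have hcont : Continuous fun p : ℝ × ℝ => 2 * d * t * Real.cos p.1 + p.2 := by fun_prop
    have hpc : IsPreconnected ((Set.univ : Set ℝ) ×ˢ Set.Icc (-c) c) :=
      isPreconnected_univ.prod isPreconnected_Icc
    obtain ⟨θ₁, h₁⟩ : ∃ θ₁, t * Real.cos θ₁ = |t| := by
      rcases abs_choice t with h | h
      exacts [⟨0, by simp [h]⟩, ⟨Real.pi, by simp [h]⟩]
    obtain ⟨p, hp, hp'⟩ := hpc.intermediate_value (a := (θ₁ + Real.pi, -c)) (b := (θ₁, c))
      ⟨trivial, le_rfl, by linarith⟩ ⟨trivial, by linarith, le_rfl⟩ hcont.continuousOn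
      (show E ∈ _ from ⟨by
        simp only [Real.cos_add_pi, mul_neg, mul_assoc, h₁]; linarith [(abs_le.1 hE).1], by
        simp only [mul_assoc, h₁]; linarith [(abs_le.1 hE).2]⟩)
    exact ⟨p.1, p.2, abs_le.2 hp.2, hp'.symm⟩
  have h2 : Tendsto (fun L : ℕ => 2 * d * |t| * √(4 / L) + 4 * c * (1 / ((L : ℝ) + 1))) atTop
      (𝓝 (2 * d * |t| * √0 + 4 * c * 0)) :=
    ((tendsto_const_div_atTop_nhds_zero_nat 4).sqrt.const_mul _).add
      (tendsto_one_div_add_atTop_nhds_zero_nat.const_mul _)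
  simp only [Real.sqrt_zero, mul_zero, add_zero] at h2
  obtain ⟨L, hL, hL1⟩ := ((h2.eventually (gt_mem_nhds hη)).and (eventually_ge_atTop 1)).exists
  have hw' := abs_le.1 hw
  let s : unitInterval := ⟨(w / c + 1) / 2, by
    have := (le_div_iff₀ hc).2 (show -1 * c ≤ w by linarith); linarith, by
    have := (div_le_iff₀ hc).2 (show w ≤ 1 * c by linarith); linarith⟩
  obtain ⟨q, hq, hq'⟩ := hD'.exists_dist_lt s (ε := 1 / ((L : ℝ) + 1)) (by positivity)
  obtain ⟨x, hx⟩ := hω q hq L L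
  refine ⟨_, (weyl_box t θ w (4 * c * (1 / ((L : ℝ) + 1))) _ x hL1 (by positivity)
    fun y hy => ?_).trans_lt (mul_lt_mul_of_pos_right hL ?_)⟩
  · have h3 := (dist_triangle_right (ω y) s q).trans (add_lt_add (hx y hy) hq').le
    have h4 : (c • centredPotentialBdd ω) y - w = 2 * c * ((ω y : ℝ) - s) := by
      simp only [pot_apply, centredPotential, s]; field_simp; ring
    rw [Subtype.dist_eq, Real.dist_eq] at h3
    rw [h4, abs_mul, abs_of_pos (by positivity)]
    nlinarith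
  · refine lt_of_pow_lt_pow_left₀ 2 (norm_nonneg _) ?_
    rw [norm_fs_pw]
    have : (0 : ℝ) < L := by exact_mod_cast hL1
    simpa using pow_pos this d

/-- the spectrum contains `[-2d|t| - c, 2d|t| + c]` almost surely -/
theorem ae_mem_spectrum (hd : 1 ≤ d) (t : ℝ) {c : ℝ} (hc : 0 < c) :
    ∀ᵐ ω ∂(siteMeasure (Fin d → ℤ)), ∀ E : ℝ, |E| ≤ 2 * d * |t| + c →
      (E : ℂ) ∈ spectrum ℂ (latticeOp d t (c • centredPotentialBdd ω)) := by
  filter_upwards [ae_weyl hd t hc] with ω hω E hE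
  rw [spectrum.mem_iff]
  rintro ⟨U, hU⟩
  obtain ⟨u, hu⟩ := hω E hE (‖(↑U⁻¹ : Ell2 d →L[ℂ] Ell2 d)‖ + 1)⁻¹ (by positivity)
  have h1 : u = (↑U⁻¹ : Ell2 d →L[ℂ] Ell2 d) ((U : Ell2 d →L[ℂ] Ell2 d) u) := by
    rw [← mul_apply_eq_comp, U.inv_mul]; rfl
  have h2 : ‖(U : Ell2 d →L[ℂ] Ell2 d) u‖ =
      ‖latticeOp d t (c • centredPotentialBdd ω) u - (E : ℂ) • u‖ := by
    rw [hU, norm_sub_rev]; rfl
  have h3 := (↑U⁻¹ : Ell2 d →L[ℂ] Ell2 d).le_opNorm ((U : Ell2 d →L[ℂ] Ell2 d) u)
  rw [← h1, h2] at h3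
  rw [lt_inv_mul_iff₀ (by positivity)] at hu
  nlinarith [norm_nonneg (latticeOp d t (c • centredPotentialBdd ω) u - (E : ℂ) • u)]

end Crest.Agent.N334.Soft
end

-- ▼ part N334/Soft/Fin

/-!
# Row 334 (helper52): the finite-volume probability estimate and the orbit in `ℓ²(ℤ²)`
-/

set_option autoImplicit false

open Matrix Finset MeasureTheory Filter Topology
open scoped ENNReal Matrix.Norms.L2Operator

namespace Crest.Agent.N334.Soft

open Crest.MathPhysics.Anderson Crest.Agent.N336.Q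


lemma measurePreserving_update {Λ : Type} [DecidableEq Λ] (x : Λ) :
    MeasurePreserving (fun p : (Λ → unitInterval) × unitInterval => Function.update p.1 x p.2)
      ((siteMeasure Λ).prod volume) (siteMeasure Λ) := by
  have hm : Measurable fun p : (Λ → unitInterval) × unitInterval => Function.update p.1 x p.2 :=
    measurable_update'
  refine ⟨hm, Measure.eq_infinitePi _ fun s t ht => ?_⟩
  rw [Measure.map_apply hm (.pi s.countable_toSet fun i _ => ht i)]
  have h1 : (fun p : (Λ → unitInterval) × unitInterval => Function.update p.1 x p.2) ⁻¹'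
      Set.pi s t = Set.pi (s.erase x) t ×ˢ (if x ∈ s then t x else Set.univ) := by
    ext p
    simp only [Set.mem_preimage, Set.mem_pi, mem_coe, Set.mem_prod, mem_erase]
    refine ⟨fun h => ⟨fun i hi => by simpa [hi.1] using h i hi.2, ?_⟩, fun h i hi => ?_⟩
    · split_ifs with hx
      · simpa using h x hx
      · trivial
    · by_cases hx : i = x
      · subst hx; simpa [hi] using h.2
      · simpa [hx] using h.1 i ⟨hx, hi⟩
  rw [h1, Measure.prod_prod, siteMeasure, Measure.infinitePi_pi _ fun i _ => ht i]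
  split_ifs with hx
  · exact prod_erase_mul s (fun i => volume (t i)) hx
  · rw [erase_eq_of_notMem hx, measure_univ, mul_one]

instance (Λ : Type) : IsProbabilityMeasure (siteMeasure Λ) := by
  unfold siteMeasure; infer_instance

namespace FinVol

variable {n : ℕ} (F : FinVol n) {h : ℝ}

lemma herm (h : ℝ) (ω : (Fin 2 → ℤ) → unitInterval) : (F.H h ω).IsHermitian := by
  refine IsHermitian.add (IsHermitian.ext fun i j => ?_)
    (isHermitian_diagonal_of_self_adjoint _ (funext fun i => by simp))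
  simp [F.symm.apply]

/-- the Hamiltonian without the potential at the origin -/
noncomputable def H0 (h : ℝ) (ω : (Fin 2 → ℤ) → unitInterval) : Matrix F.ι F.ι ℂ :=
  Hv (F.H h ω) F.o (-(h * centredPotential ω 0))


lemma norm_H_le (hh : 0 ≤ h) (ω : (Fin 2 → ℤ) → unitInterval) : ‖F.H h ω‖ ≤ 4 + h := by
  refine (norm_add_le _ _).trans (add_le_add F.norm_le ?_)
  rw [l2_opNorm_diagonal, pi_norm_le_iff_of_nonneg hh]
  intro y
  have h0 := (ω (F.e y)).2.1
  have h1 := (ω (F.e y)).2.2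
  rw [Complex.norm_real, Real.norm_eq_abs, abs_le, centredPotential]
  constructor <;> nlinarith

/-- the finite-volume Chebyshev orbit -/
noncomputable def orb (h : ℝ) (ω : (Fin 2 → ℤ) → unitInterval) (k : ℕ) : Vec F.ι :=
  ch ((((2 * (4 + h))⁻¹ : ℝ) : ℂ) • ap (F.H h ω)) (EuclideanSpace.single F.o 1) k



/-- extension by zero -/
noncomputable def ext : Vec F.ι →ₗ[ℂ] Ell2 2 where
  toFun u := ∑ y, lp.single 2 (F.e y) (u y)
  map_add' u w := by simp [lp.single_add, sum_add_distrib]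
  map_smul' c u := by simp only [PiLp.smul_apply, lp.single_smul, smul_sum, RingHom.id_apply]

lemma ext_apply (u : Vec F.ι) (z : Fin 2 → ℤ) :
    F.ext u z = ∑ y, if z = F.e y then u y else 0 := by
  change (∑ y, lp.single 2 (F.e y) (u y) : Ell2 2) z = _
  rw [lp.coeFn_sum, Finset.sum_apply]
  simp only [lp.single_apply, Pi.single_apply]

end FinVol

lemma adj_comm {d : ℕ} (x y : Fin d → ℤ) : adj x y = adj y x :=
  sum_congr rfl fun j _ => by
    rw [add_comm]
    congr 1 <;> refine if_congr ?_ rfl rfl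
    · rw [eq_sub_iff_add_eq, eq_comm]
    · rw [eq_sub_iff_add_eq, eq_comm]

lemma adj_ne_zero {d : ℕ} {x y : Fin d → ℤ} (h : adj x y ≠ 0) (j : Fin d) : |y j| ≤ |x j| + 1 := by
  obtain ⟨i, -, hi⟩ := exists_ne_zero_of_sum_ne_zero h
  have h1 : |(Pi.single i 1 : Fin d → ℤ) j| ≤ 1 := by
    rw [Pi.single_apply]; split_ifs <;> simp
  by_cases h2 : y = x + Pi.single i 1
  · rw [h2]; exact (abs_add_le _ _).trans (add_le_add_right h1 _)
  · by_cases h3 : y = x - Pi.single i 1
    · rw [h3]; exact (abs_sub _ _).trans (add_le_add_right h1 _)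
    · simp [h2, h3] at hi

namespace FinVol

variable {n : ℕ} (F : FinVol n) {h : ℝ}

/-- supported in the ball of radius `m` -/
def Sup (m : ℕ) (u : Vec F.ι) : Prop := ∀ y, u y ≠ 0 → ∀ j, |F.e y j| ≤ m

lemma H_apply (h : ℝ) (ω : (Fin 2 → ℤ) → unitInterval) {u : Vec F.ι} (hu : F.Sup n u) (y : F.ι) :
    ap (F.H h ω) u y = ∑ x, (adj (F.e x) (F.e y) : ℂ) * u x +
      (h * centredPotential ω (F.e y) : ℝ) * u y := by
  simp only [ap_apply, H, Matrix.add_apply, add_mul, sum_add_distrib, diagonal_apply, ite_mul,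
    zero_mul, sum_ite_eq, mem_univ, if_true, map_apply]
  congr 1
  refine sum_congr rfl fun x _ => ?_
  by_cases hx : u x = 0
  · simp [hx]
  · rw [← F.symm.apply, F.adj_eq x y (hu x hx)]

lemma Sup.H {F : FinVol n} (h : ℝ) (ω : (Fin 2 → ℤ) → unitInterval) {m : ℕ} {u : Vec F.ι}
    (hu : F.Sup m u) (hm : m ≤ n) : F.Sup (m + 1) (ap (F.H h ω) u) := by
  intro y hy j
  rw [F.H_apply h ω fun y hy j => (hu y hy j).trans (by exact_mod_cast hm)] at hy
  by_cases h1 : u y = 0
  · rw [h1, mul_zero, add_zero] at hy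
    obtain ⟨x, -, hx⟩ := exists_ne_zero_of_sum_ne_zero hy
    have h2 := adj_ne_zero (fun h => by simp [h] at hx : adj (F.e x) (F.e y) ≠ 0) j
    have h3 := hu x (right_ne_zero_of_mul hx) j
    push_cast; linarith
  · have := hu y h1 j
    push_cast; linarith

lemma ext_H (h : ℝ) (ω : (Fin 2 → ℤ) → unitInterval) {u : Vec F.ι} (hu : F.Sup n u) :
    F.ext (ap (F.H h ω) u) = latticeOp 2 1 (h • centredPotentialBdd ω) (F.ext u) := by
  ext z
  rw [latticeOp_apply, applyOp, pot_apply]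
  simp only [ext_apply, F.H_apply h ω hu, Complex.ofReal_one, one_mul, mul_sum, ← sum_add_distrib]
  rw [sum_comm, ← sum_add_distrib]
  have h1 : ∀ x, ∑ j : Fin 2, ((if z + Pi.single j 1 = F.e x then u x else 0) +
      if z - Pi.single j 1 = F.e x then u x else 0) = (adj (F.e x) z : ℂ) * u x := fun x => by
    rw [adj_comm, adj]; push_cast
    rw [sum_mul]
    refine sum_congr rfl fun j _ => ?_
    simp only [eq_comm (a := F.e x)]
    split_ifs <;> push_cast <;> ring
  simp only [h1, sum_add_distrib]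
  by_cases hz : ∃ y, F.e y = z
  · obtain ⟨y, rfl⟩ := hz
    simp [F.e.injective.eq_iff]
  · have h2 : ∀ y, ¬ z = F.e y := fun y h => hz ⟨y, h.symm⟩
    simp only [h2, if_false, sum_const_zero, mul_zero, add_zero]
    refine (sum_eq_zero fun x _ => ?_).symm
    by_contra hx
    refine hz (F.cover z fun j => ?_)
    have h3 := adj_ne_zero (fun h => by simp [h] at hx : adj (F.e x) z ≠ 0) j
    linarith [hu x (right_ne_zero_of_mul hx) j]

lemma ext_orb (h : ℝ) (ω : (Fin 2 → ℤ) → unitInterval) : ∀ k ≤ n, F.Sup k (F.orb h ω k) ∧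
    F.ext (F.orb h ω k) = ch ((((2 * (4 + h))⁻¹ : ℝ) : ℂ) •
      latticeOp 2 1 (h • centredPotentialBdd ω)) (lp.single 2 0 1) k := by
  have h0 : F.Sup 0 (EuclideanSpace.single F.o 1) := fun y hy j => by
    obtain rfl : y = F.o := by by_contra h; simp [h] at hy
    simp [F.e_o]
  have h1 : F.ext (EuclideanSpace.single F.o 1) = lp.single 2 0 1 := by
    ext z
    rw [ext_apply, sum_eq_single F.o] <;> simp +contextual [F.e_o, lp.single_apply, Pi.single_apply]
  have h2 : ∀ {m} {u : Vec F.ι}, F.Sup m u → m ≤ n → F.Sup n u := fun hu hm y hy j =>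
    (hu y hy j).trans (by exact_mod_cast hm)
  intro k
  induction k using Nat.twoStepInduction with
  | zero => exact fun _ => ⟨h0, h1⟩
  | one =>
    refine fun hn => ⟨fun y hy => h0.H h ω n.zero_le y (right_ne_zero_of_mul hy), ?_⟩
    simp only [orb, ch, _root_.smul_apply, map_smul, F.ext_H h ω (h2 h0 n.zero_le), h1]
  | more k i1 i2 =>
    intro hn
    obtain ⟨i1, i1'⟩ := i1 (by omega)
    obtain ⟨i2, i2'⟩ := i2 (by omega)
    refine ⟨fun y hy j => ?_, ?_⟩
    · by_cases h3 : F.orb h ω k y = 0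
      · refine i2.H h ω (by omega) y (fun h4 => hy ?_) j
        change 2 * (_ * ap (F.H h ω) (F.orb h ω (k + 1)) y) - F.orb h ω k y = 0
        rw [h3, h4]; simp
      · have := i1 y h3 j
        push_cast; linarith
    · rw [ch, ← i1', ← i2', _root_.smul_apply, ← F.ext_H h ω (h2 i2 (by omega)), ← map_smul,
        ← map_smul, ← map_sub]
      rfl

end FinVol

end Crest.Agent.N334.Soft
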